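import Vale.Agent.P048.MainEven

/-!
# P048: the cycle-complete Ramsey number for `m ≥ 2n`
-/

namespace Vale.Agent.Results.P048.TwoN

open Vale.Agent.P048

/-- For all `n ≥ 2` and `m ≥ 2n` the least number of vertices forcing an `m`-cycle or an
independent set of size `n` is `(m-1)(n-1)+1`. -/
theorem result : ∀ m n : ℕ, 2 ≤ n → 2 * n ≤ m →
    IsLeast {N : ℕ | ∀ G : SimpleGraph (Fin N),
        (∃ (v : Fin N) (p : G.Walk v v), p.IsCycle ∧ p.length = m) ∨
          ∃ s : Finset (Fin N), G.IsNIndepSet n s}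
      ((m - 1) * (n - 1) + 1) := by
  intro m n hn hm
  refine ramsey_eq_of_upper (by omega) (by omega) fun N hN G hG => ?_
  exact hasCyc_of_indepLE_even m (n - 1) (by omega) (by omega) (Fin N) G (by simpa using hN) hG

end Vale.Agent.Results.P048.TwoN
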